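import Vale.Agent.P205.Iter.Adapter
import Vale.Agent.P205.Assembly.Base.Glue

/-!
An atlas with one more parametrised disc of weight zero, and a tensor field made of a fixed
pullback and a piece given in that disc.
-/

noncomputable section

set_option maxSynthPendingDepth 3

open Set Filter Finset Metric Function
open scoped ContDiff Topology Manifold

namespace Vale.Agent.P205.Patch

open Wave (V4 ip)
open Iter

variable {M : Type} [TopologicalSpace M] [ChartedSpace R2 M]

/-- An atlas with one more parametrised disc, of weight zero. -/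
def extend (𝒜 : Atlas (E := R2) (I := 𝓘(ℝ, R2)) (M := M)) (σ : R2 → M) (q : M → R2)
    (hσ : ContMDiff 𝓘(ℝ, R2) 𝓘(ℝ, R2) ∞ σ) (hqσ : ∀ t, q (σ t) = t) (hop : IsOpen (range σ))
    (hq : ContMDiffOn 𝓘(ℝ, R2) 𝓘(ℝ, R2) ∞ q (range σ)) :
    Atlas (E := R2) (I := 𝓘(ℝ, R2)) (M := M) where
  ι := Option 𝒜.ι
  fin := inferInstance
  par o := o.elim σ 𝒜.par
  inv o := o.elim q 𝒜.inv
  src o := o.elim (range σ ∩ q ⁻¹' ball 0 3) 𝒜.src
  src_open o := by
    cases o with
    | none => exact hq.continuousOn.isOpen_inter_preimage hop isOpen_ball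
    | some j => exact 𝒜.src_open j
  par_smooth o := by
    cases o with
    | none => exact hσ.contMDiffOn
    | some j => exact 𝒜.par_smooth j
  par_mem o := by
    cases o with
    | none => exact fun t ht => ⟨mem_range_self t, by simpa [hqσ] using ht⟩
    | some j => exact 𝒜.par_mem j
  inv_mem o := by
    cases o with
    | none => exact fun p hp => hp.2
    | some j => exact 𝒜.inv_mem j
  inv_smooth o := by
    cases o with
    | none => exact hq.mono inter_subset_left
    | some j => exact 𝒜.inv_smooth j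
  inv_par o := by
    cases o with
    | none => exact fun t _ => hqσ t
    | some j => exact 𝒜.inv_par j
  par_inv o := by
    cases o with
    | none =>
      rintro p ⟨⟨t, rfl⟩, -⟩
      simp [hqσ]
    | some j => exact 𝒜.par_inv j
  weight o := o.elim (fun _ => 0) 𝒜.weight
  weight_smooth o := by
    cases o with
    | none => exact contMDiff_const
    | some j => exact 𝒜.weight_smooth j
  weight_supp o := by
    cases o with
    | none =>
      simp [tsupport, Function.support]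
    | some j => exact 𝒜.weight_supp j
  weight_sum p := by
    rw [Fintype.sum_option]
    simpa using 𝒜.weight_sum p

variable (𝒜 : Atlas (E := R2) (I := 𝓘(ℝ, R2)) (M := M))

/-- The differential of the inverse of a parametrisation. -/
def dinv (j : 𝒜.ι) (p : M) : R2 →L[ℝ] R2 := mfderiv 𝓘(ℝ, R2) 𝓘(ℝ, R2) (𝒜.inv j) p

open Classical in
/-- A piece given in one parametrisation, as a tensor field. -/
def glueForm (j : 𝒜.ι) (e : R2 → Bil R2) : MForm M := fun p =>
  if p ∈ 𝒜.src j then (e (𝒜.inv j p)).bilinearComp (dinv 𝒜 j p) (dinv 𝒜 j p) else (0 : Bil R2)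

theorem glueForm_symm (j : 𝒜.ι) {e : R2 → Bil R2} (he : ∀ y u v, e y u v = e y v u) (p : M)
    (v w : TangentSpace 𝓘(ℝ, R2) p) : glueForm 𝒜 j e p v w = glueForm 𝒜 j e p w v := by
  classical
  have key : ∀ a b : R2, formB (glueForm 𝒜 j e) p a b = formB (glueForm 𝒜 j e) p b a := fun a b => by
    rw [show formB (glueForm 𝒜 j e) p = if p ∈ 𝒜.src j then
      (e (𝒜.inv j p)).bilinearComp (dinv 𝒜 j p) (dinv 𝒜 j p) else 0 from rfl]
    split_ifs
    · exact he (𝒜.inv j p) (dinv 𝒜 j p a) (dinv 𝒜 j p b)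
    · rfl
  exact key v w

/-- The family with one piece. -/
def single [DecidableEq 𝒜.ι] (j : 𝒜.ι) (e : R2 → Bil R2) (i : 𝒜.ι) : R2 → Bil R2 :=
  if i = j then e else fun _ => 0

theorem dinv_comp (j k : 𝒜.ι) {z : R2} (hz : z ∈ 𝒜.ov j k) :
    (dinv 𝒜 j (𝒜.par k z)).comp (dpar (𝒜.par k) z) = fderiv ℝ (𝒜.trans j k) z := by
  have h1 : MDifferentiableAt 𝓘(ℝ, R2) 𝓘(ℝ, R2) (𝒜.inv j) (𝒜.par k z) :=
    ((𝒜.inv_smooth j).contMDiffAt ((𝒜.src_open j).mem_nhds hz.2)).mdifferentiableAt (by simp)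
  have h2 : MDifferentiableAt 𝓘(ℝ, R2) 𝓘(ℝ, R2) (𝒜.par k) z :=
    ((𝒜.par_smooth k).contMDiffAt (isOpen_ball.mem_nhds hz.1)).mdifferentiableAt (by simp)
  rw [show fderiv ℝ (𝒜.trans j k) z = mfderiv 𝓘(ℝ, R2) 𝓘(ℝ, R2) (𝒜.trans j k) z from
    mfderiv_eq_fderiv.symm]
  exact (mfderiv_comp z h1 h2).symm

/-- The components of a piece are those of the assembled family. -/
theorem chartForm_glue [DecidableEq 𝒜.ι] (j : 𝒜.ι) (e : R2 → Bil R2) (k : 𝒜.ι) {z : R2}
    (hz : z ∈ ball (0 : R2) 3) :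
    chartForm (glueForm 𝒜 j e) (𝒜.par k) z = compL' (𝒜.push (single 𝒜 j e) k z) := by
  classical
  rw [chartForm_eq, Atlas.push, Finset.sum_eq_single j (fun i _ hi => ?_)
    (fun h => absurd (Finset.mem_univ j) h)]
  · rw [show formB (glueForm 𝒜 j e) (𝒜.par k z) = if 𝒜.par k z ∈ 𝒜.src j then
      (e (𝒜.inv j (𝒜.par k z))).bilinearComp (dinv 𝒜 j (𝒜.par k z)) (dinv 𝒜 j (𝒜.par k z))
      else 0 from rfl]
    simp only [single, if_pos]
    split_ifs with h
    · rw [← dinv_comp 𝒜 j k ⟨hz, h⟩]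
      rfl
    · simp
  · simp [single, hi]

/-- The pieces in their own parametrisation. -/
theorem push_single_self [DecidableEq 𝒜.ι] (j : 𝒜.ι) (e : R2 → Bil R2) {z : R2}
    (hz : z ∈ ball (0 : R2) 3) : 𝒜.push (single 𝒜 j e) j z = e z := by
  classical
  have hev : 𝒜.trans j j =ᶠ[𝓝 z] id := by
    filter_upwards [isOpen_ball.mem_nhds hz] with y hy using 𝒜.inv_par j y hy
  rw [Atlas.push, Finset.sum_eq_single j (fun i _ hi => ?_)
    (fun h => absurd (Finset.mem_univ j) h)]
  · rw [if_pos (𝒜.par_mem j hz), hev.fderiv_eq, fderiv_id, hev.eq_of_nhds]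
    simp only [single, if_pos, id]
    ext u v
    simp
  · simp [single, hi]

/-- Compact bounds of a smooth function on the ball of radius three. -/
theorem compact_bd {F : Type} [NormedAddCommGroup F] [NormedSpace ℝ F] {f : R2 → F}
    (hf : ContDiffOn ℝ ∞ f (ball 0 3)) (i : ℕ) :
    ∃ C : ℝ, 0 ≤ C ∧ ∀ z ∈ closedBall (0 : R2) 2, ‖iteratedFDeriv ℝ i f z‖ ≤ C := by
  have hc : ContinuousOn (iteratedFDeriv ℝ i f) (ball 0 3) :=
    (hf.continuousOn_iteratedFDerivWithin (by exact_mod_cast le_top)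
      isOpen_ball.uniqueDiffOn).congr fun y hy =>
        (iteratedFDerivWithin_of_isOpen i isOpen_ball hy).symm
  obtain ⟨C, hC⟩ := (isCompact_closedBall (0 : R2) 2).exists_bound_of_continuousOn
    (hc.mono (closedBall_subset_ball (by norm_num)))
  exact ⟨|C|, abs_nonneg C, fun z hz => (hC z hz).trans (le_abs_self C)⟩

/-- Bounds on the open ball pass to the closed one. -/
theorem closed_bd {F : Type} [NormedAddCommGroup F] [NormedSpace ℝ F] {f : R2 → F}
    (hf : ContDiffOn ℝ ∞ f (ball 0 3)) (i : ℕ) {c : ℝ}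
    (h : ∀ z ∈ ball (0 : R2) 2, ‖iteratedFDeriv ℝ i f z‖ ≤ c) {z : R2}
    (hz : z ∈ closedBall (0 : R2) 2) : ‖iteratedFDeriv ℝ i f z‖ ≤ c := by
  have h3 : closedBall (0 : R2) 2 ⊆ ball 0 3 := closedBall_subset_ball (by norm_num)
  have hc : ContinuousOn (iteratedFDeriv ℝ i f) (ball 0 3) :=
    (hf.continuousOn_iteratedFDerivWithin (by exact_mod_cast le_top)
      isOpen_ball.uniqueDiffOn).congr fun y hy =>
        (iteratedFDerivWithin_of_isOpen i isOpen_ball hy).symm
  have hcl : closure (ball (0 : R2) 2) = closedBall 0 2 := closure_ball 0 two_ne_zero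
  exact le_on_closure (g := fun _ => c) h (by rw [hcl]; exact (hc.mono h3).norm) continuousOn_const
    (by rw [hcl]; exact hz)

variable [T2Space M]

/-- The components of a glued piece are bounded linearly by the piece. -/
theorem glue_bd [DecidableEq 𝒜.ι] (j : 𝒜.ι) (i : ℕ) : ∃ c : ℝ, 0 ≤ c ∧ ∀ e : R2 → Bil R2,
    ContDiff ℝ ∞ e → support e ⊆ closedBall 0 2 → ∀ C : ℝ, 0 ≤ C →
    (∀ l ≤ i, ∀ y, ‖iteratedFDeriv ℝ l e y‖ ≤ C) →
      ∀ k, ∀ z ∈ closedBall (0 : R2) 2,
        ‖iteratedFDeriv ℝ i (fun w => compL' (𝒜.push (single 𝒜 j e) k w)) z‖ ≤ c * C := by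
  obtain ⟨c, hc0, hc⟩ := 𝒜.push_deriv i
  refine ⟨‖compL'‖ * c, mul_nonneg (norm_nonneg compL') hc0, fun e he hs C hC0 hC k z hz => ?_⟩
  have he' : ∀ l, ContDiff ℝ ∞ (single 𝒜 j e l) := fun l => by
    unfold single; split_ifs
    · exact he
    · exact contDiff_const
  have hs' : ∀ l, support (single 𝒜 j e l) ⊆ closedBall 0 2 := fun l => by
    unfold single; split_ifs
    · exact hs
    · simp [Function.support]
  have hC' : ∀ l ≤ i, ∀ i' y, ‖iteratedFDeriv ℝ l (single 𝒜 j e i') y‖ ≤ C := fun l hl i' y => by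
    unfold single; split_ifs
    · exact hC l hl y
    · rw [iteratedFDeriv_fun_zero, Pi.zero_apply, norm_zero]; exact hC0
  have hsm := 𝒜.push_smooth he' hs' k
  refine closed_bd (compL'.contDiff.comp_contDiffOn hsm) i (fun w hw => ?_) hz
  have hw3 : w ∈ ball (0 : R2) 3 := ball_subset_ball (by norm_num) hw
  refine (compL'.norm_iteratedFDeriv_comp_left (hsm.contDiffAt (isOpen_ball.mem_nhds hw3))
    (by exact_mod_cast le_top)).trans ?_
  rw [mul_assoc]
  exact mul_le_mul_of_nonneg_left (hc _ he' hs' C hC0 hC' k w hw) (norm_nonneg _)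

end Vale.Agent.P205.Patch
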