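import Vale.Agent.P205.Iter.Patchwork
import Vale.Agent.P205.Assembly.Base.Glue
import Mathlib.Analysis.Calculus.BumpFunction.InnerProduct

/-!
The perturbation of the patch, the flat torus and the second form of a map into the unit sphere.
-/

noncomputable section

set_option maxSynthPendingDepth 3

open Set Filter Finset Metric Function Real
open scoped ContDiff Topology

namespace Vale.Agent.P205.Patch

open Wave (V4 ip D)
open Iter (Bil bilL lin_comp)

/-- The cut-off of the patch. -/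
def bump : ContDiffBump (0 : R2) := ⟨3 / 4, 9 / 10, by norm_num, by norm_num⟩

/-- Products with a fixed cut-off are bounded by the second factor on the smaller disc. -/
theorem cut_mul_bd {F : Type} [NormedAddCommGroup F] [NormedSpace ℝ F] (φ : R2 → ℝ)
    (hφ : ContDiff ℝ ∞ φ) (hs : ∀ t, t ∉ closedBall (0 : R2) (9 / 10) → φ t = 0) (i : ℕ) :
    ∃ C : ℝ, 0 ≤ C ∧ ∀ f : R2 → F, ContDiffOn ℝ ∞ f (ball 0 1) → ∀ B : ℝ, 0 ≤ B →
      (∀ l ≤ i, ∀ t ∈ closedBall (0 : R2) (9 / 10), ‖iteratedFDeriv ℝ l f t‖ ≤ B) →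
      ∀ t, ‖iteratedFDeriv ℝ i (fun w => φ w • f w) t‖ ≤ C * B := by
  have hb : ∀ l : ℕ, ∃ c, ∀ t ∈ closedBall (0 : R2) (9 / 10), ‖iteratedFDeriv ℝ l φ t‖ ≤ c :=
    fun l => (isCompact_closedBall (0 : R2) (9 / 10)).exists_bound_of_continuousOn
      ((hφ.continuous_iteratedFDeriv (by exact_mod_cast le_top)).continuousOn)
  choose c hc using hb
  refine ⟨∑ l ∈ range (i + 1), (i.choose l : ℝ) * |c l|,
    Finset.sum_nonneg fun l _ => mul_nonneg (Nat.cast_nonneg _) (abs_nonneg _),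
    fun f hf B hB0 hB t => ?_⟩
  have h91 : closedBall (0 : R2) (9 / 10) ⊆ ball 0 1 := closedBall_subset_ball (by norm_num)
  by_cases ht : t ∈ closedBall (0 : R2) (9 / 10)
  · rw [← iteratedFDerivWithin_of_isOpen i isOpen_ball (h91 ht)]
    refine (norm_iteratedFDerivWithin_smul_le hφ.contDiffOn hf isOpen_ball.uniqueDiffOn (h91 ht)
      (n := i) (by exact_mod_cast le_top)).trans ?_
    rw [Finset.sum_mul]
    refine Finset.sum_le_sum fun l _ => ?_
    rw [iteratedFDerivWithin_of_isOpen _ isOpen_ball (h91 ht),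
      iteratedFDerivWithin_of_isOpen _ isOpen_ball (h91 ht)]
    exact mul_le_mul (mul_le_mul_of_nonneg_left ((hc l t ht).trans (le_abs_self _))
      (Nat.cast_nonneg _)) (hB _ (Nat.sub_le i l) t ht) (norm_nonneg _)
      (mul_nonneg (Nat.cast_nonneg _) (abs_nonneg _))
  · have hev : (fun w => φ w • f w) =ᶠ[𝓝 t] fun _ => (0 : F) := by
      filter_upwards [isClosed_closedBall.isOpen_compl.mem_nhds ht] with w hw
      rw [hs w hw, zero_smul]
    rw [(hev.iteratedFDeriv ℝ i).eq_of_nhds, iteratedFDeriv_fun_zero, Pi.zero_apply, norm_zero]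
    exact mul_nonneg (Finset.sum_nonneg fun l _ => mul_nonneg (Nat.cast_nonneg _) (abs_nonneg _)) hB0

/-- A fixed cut-off makes a global smooth function. -/
theorem cut_mul_smooth {F : Type} [NormedAddCommGroup F] [NormedSpace ℝ F] {φ : R2 → ℝ}
    (hφ : ContDiff ℝ ∞ φ) (hs : ∀ t, t ∉ closedBall (0 : R2) (9 / 10) → φ t = 0) {f : R2 → F}
    (hf : ContDiffOn ℝ ∞ f (ball 0 1)) : ContDiff ℝ ∞ fun w => φ w • f w := by
  refine contDiff_iff_contDiffAt.2 fun t => ?_
  by_cases ht : t ∈ closedBall (0 : R2) (9 / 10)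
  · exact hφ.contDiffAt.smul (hf.contDiffAt
      (isOpen_ball.mem_nhds (closedBall_subset_ball (by norm_num) ht)))
  · refine (contDiffAt_const (c := (0 : F))).congr_of_eventuallyEq ?_
    filter_upwards [isClosed_closedBall.isOpen_compl.mem_nhds ht] with w hw
    rw [hs w hw, zero_smul]

theorem bump_zero (t : R2) (ht : t ∉ closedBall (0 : R2) (9 / 10)) : bump t = 0 :=
  bump.zero_of_le_dist (le_of_lt (not_le.1 fun h => ht (mem_closedBall.2 h)))

/-- The shrunk tensor. -/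
def shrink (G : R2 → Sym2) (r : ℝ) (t : R2) : Sym2 := G (r • t)

theorem shrink_maps {r : ℝ} (hr : |r| ≤ 1) {t : R2} (ht : t ∈ ball (0 : R2) 1) :
    r • t ∈ ball (0 : R2) 1 := by
  rw [mem_ball_zero_iff] at ht ⊢
  rw [norm_smul, Real.norm_eq_abs]
  exact (mul_le_of_le_one_left (norm_nonneg t) hr).trans_lt ht

theorem shrink_smooth {G : R2 → Sym2} (hG : ContDiffOn ℝ ∞ G (ball 0 1)) {r : ℝ} (hr : |r| ≤ 1) :
    ContDiffOn ℝ ∞ (shrink G r) (ball 0 1) :=
  hG.comp (contDiff_id.const_smul r).contDiffOn fun _ ht => shrink_maps hr ht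

/-- The piece of the patch: the shrunk tensor dimmed by the ring, minus the identity. -/
def piece (G : R2 → Sym2) (ρ c r : ℝ) (t : R2) : Bil R2 :=
  bump t • bilL ((shrink G r t - ![1, 0, 1]) - c • (ring (ρ⁻¹ • t) • shrink G r t))

theorem ring_smooth (ρ : ℝ) : ContDiff ℝ ∞ fun t : R2 => ring (ρ⁻¹ • t) :=
  expNegInvGlue.contDiff.comp (((contDiff_id.const_smul ρ⁻¹).norm_sq ℝ).sub contDiff_const)

theorem piece_smooth {G : R2 → Sym2} (hG : ContDiffOn ℝ ∞ G (ball 0 1)) (ρ c : ℝ) {r : ℝ}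
    (hr : |r| ≤ 1) : ContDiff ℝ ∞ (piece G ρ c r) :=
  cut_mul_smooth bump.contDiff bump_zero (bilL.contDiff.comp_contDiffOn
    (((shrink_smooth hG hr).sub contDiffOn_const).sub
      (((ring_smooth ρ).contDiffOn.smul (shrink_smooth hG hr)).const_smul c)))

theorem piece_supp (G : R2 → Sym2) (ρ c r : ℝ) : support (piece G ρ c r) ⊆ closedBall 0 2 :=
  fun t ht => closedBall_subset_closedBall (by norm_num : (9 : ℝ) / 10 ≤ 2) (by
    by_contra h
    exact ht (by simp [piece, bump_zero t h]))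

/-- The piece is small with the two parameters. -/
theorem piece_bd {G : R2 → Sym2} (hG : ContDiffOn ℝ ∞ G (ball 0 1)) (hG0 : G 0 = ![1, 0, 1])
    (ρ : ℝ) (i : ℕ) : ∃ C : ℝ, 0 ≤ C ∧ ∀ c r : ℝ, 0 ≤ c → 0 < r → r ≤ 1 →
      ∀ t, ‖iteratedFDeriv ℝ i (piece G ρ c r) t‖ ≤ C * (c + r) := by
  set S : Set R2 := closedBall 0 (9 / 10) with hS
  have hS1 : S ⊆ ball 0 1 := closedBall_subset_ball (by norm_num)
  have hcompact : IsCompact S := isCompact_closedBall _ _
  have hGb : ∀ l : ℕ, ∃ g, 0 ≤ g ∧ ∀ t ∈ S, ‖iteratedFDeriv ℝ l G t‖ ≤ g := fun l => by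
    have hc : ContinuousOn (iteratedFDeriv ℝ l G) (ball 0 1) :=
      (hG.continuousOn_iteratedFDerivWithin (by exact_mod_cast le_top)
        isOpen_ball.uniqueDiffOn).congr fun y hy =>
          (iteratedFDerivWithin_of_isOpen l isOpen_ball hy).symm
    obtain ⟨g, hg⟩ := hcompact.exists_bound_of_continuousOn (hc.mono hS1)
    exact ⟨|g|, abs_nonneg g, fun t ht => (hg t ht).trans (le_abs_self g)⟩
  choose g hg0 hg using hGb
  have hsh : ∀ (r : ℝ), 0 < r → r ≤ 1 → ∀ t ∈ S, r • t ∈ S := fun r hr hr1 t ht => by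
    rw [hS, mem_closedBall_zero_iff] at ht ⊢
    rw [norm_smul, Real.norm_of_nonneg hr.le]
    exact (mul_le_of_le_one_left (norm_nonneg t) hr1).trans ht
  -- derivatives of the shrunk tensor
  have hd : ∀ (l : ℕ) (r : ℝ), 0 < r → r ≤ 1 → ∀ t ∈ S,
      ‖iteratedFDeriv ℝ l (shrink G r) t‖ ≤ g l * r ^ l := fun l r hr hr1 t ht => by
    have e : (fun w : R2 => G ((ContinuousLinearEquiv.smulLeft (Units.mk0 r hr.ne') :
        R2 ≃L[ℝ] R2) w)) = shrink G r := rfl
    rw [← e]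
    refine (lin_comp (ContinuousLinearEquiv.smulLeft (Units.mk0 r hr.ne')) G isOpen_ball
      (shrink_maps ((abs_of_pos hr).le.trans hr1) (hS1 ht)) l).trans ?_
    refine mul_le_mul (hg l _ (hsh r hr hr1 t ht)) (pow_le_pow_left₀ (norm_nonneg _) ?_ l)
      (pow_nonneg (norm_nonneg _) l) (hg0 l)
    refine ContinuousLinearMap.opNorm_le_bound _ hr.le fun x => le_of_eq ?_
    show ‖(r : ℝ) • x‖ = r * ‖x‖
    rw [norm_smul, Real.norm_of_nonneg hr.le]
  have hu : ∀ (l : ℕ) (r : ℝ), 0 < r → r ≤ 1 → ∀ t ∈ S,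
      ‖iteratedFDeriv ℝ l (fun w => shrink G r w - ![1, 0, 1]) t‖ ≤ (g l + g 1) * r := by
    intro l r hr hr1 t ht
    rcases l with _ | l
    · rw [norm_iteratedFDeriv_zero, shrink, ← hG0]
      have h : ∀ x ∈ S, DifferentiableAt ℝ G x := fun x hx =>
        (hG.differentiableOn (by simp)).differentiableAt (isOpen_ball.mem_nhds (hS1 hx))
      refine ((convex_closedBall (0 : R2) (9 / 10)).norm_image_sub_le_of_norm_fderiv_le h
        (fun x hx => by rw [← norm_iteratedFDeriv_one]; exact hg 1 x hx)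
        (mem_closedBall_self (by norm_num)) (hsh r hr hr1 t ht)).trans ?_
      rw [sub_zero, norm_smul, Real.norm_of_nonneg hr.le]
      rw [hS, mem_closedBall_zero_iff] at ht
      calc g 1 * (r * ‖t‖) ≤ g 1 * (r * 1) :=
            mul_le_mul_of_nonneg_left (mul_le_mul_of_nonneg_left (by linarith) hr.le) (hg0 1)
        _ ≤ _ := by rw [mul_one]; exact mul_le_mul_of_nonneg_right (le_add_of_nonneg_left (hg0 0)) hr.le
    · have hsm : ContDiffAt ℝ (l + 1 : ℕ) (shrink G r) t :=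
        ((shrink_smooth hG (by rwa [abs_of_pos hr])).contDiffAt
          (isOpen_ball.mem_nhds (hS1 ht))).of_le (by exact_mod_cast le_top)
      rw [fun_iteratedFDeriv_sub_apply hsm contDiffAt_const,
        iteratedFDeriv_const_of_ne (by omega), Pi.zero_apply, sub_zero]
      refine (hd _ r hr hr1 t ht).trans ?_
      exact mul_le_mul (le_add_of_nonneg_right (hg0 1)) (pow_le_of_le_one hr.le hr1 (by omega))
        (pow_nonneg hr.le _) (add_nonneg (hg0 _) (hg0 1))
  have hring : ∀ l : ℕ, ∃ b, 0 ≤ b ∧ ∀ t ∈ S,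
      ‖iteratedFDeriv ℝ l (fun w : R2 => ring (ρ⁻¹ • w)) t‖ ≤ b := fun l => by
    obtain ⟨b, hb⟩ := hcompact.exists_bound_of_continuousOn
      (((ring_smooth ρ).continuous_iteratedFDeriv (m := l) (by exact_mod_cast le_top)).continuousOn)
    exact ⟨|b|, abs_nonneg b, fun t ht => (hb t ht).trans (le_abs_self b)⟩
  choose b hb0 hb using hring
  obtain ⟨Cφ, hCφ0, hCφ⟩ := cut_mul_bd (F := Bil R2) bump bump.contDiff bump_zero i
  set P : ℕ → ℝ := fun l => g l + g 1 + ∑ m ∈ range (l + 1), (l.choose m : ℝ) * b m * g (l - m)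
    with hP
  have hP0 : ∀ l, 0 ≤ P l := fun l => add_nonneg (add_nonneg (hg0 l) (hg0 1))
    (Finset.sum_nonneg fun m _ => mul_nonneg (mul_nonneg (Nat.cast_nonneg _) (hb0 m)) (hg0 _))
  refine ⟨Cφ * (‖bilL‖ * ∑ l ∈ range (i + 1), P l),
    mul_nonneg hCφ0 (mul_nonneg (norm_nonneg bilL) (Finset.sum_nonneg fun l _ => hP0 l)),
    fun c r hc hr hr1 t => ?_⟩
  have hrabs : |r| ≤ 1 := by rwa [abs_of_pos hr]
  have hsum : 0 ≤ c + r := add_nonneg hc hr.le
  have hh : ContDiffOn ℝ ∞ (fun w => (shrink G r w - ![1, 0, 1]) -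
      c • (ring (ρ⁻¹ • w) • shrink G r w)) (ball 0 1) :=
    ((shrink_smooth hG hrabs).sub contDiffOn_const).sub
      (((ring_smooth ρ).contDiffOn.smul (shrink_smooth hG hrabs)).const_smul c)
  rw [mul_assoc]
  refine hCφ _ (bilL.contDiff.comp_contDiffOn hh) _
    (mul_nonneg (mul_nonneg (norm_nonneg bilL) (Finset.sum_nonneg fun l _ => hP0 l)) hsum)
    (fun l hl w hw => ?_) t
  have hw1 := isOpen_ball.mem_nhds (hS1 hw)
  refine (bilL.norm_iteratedFDeriv_comp_left (hh.contDiffAt hw1) (by exact_mod_cast le_top)).trans ?_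
  rw [mul_assoc]
  refine mul_le_mul_of_nonneg_left ?_ (norm_nonneg bilL)
  refine le_trans ?_ (mul_le_mul_of_nonneg_right
    (single_le_sum (fun l _ => hP0 l) (Finset.mem_range.2 (by omega : l < i + 1))) hsum)
  have h1 : ContDiffAt ℝ l (fun w => shrink G r w - ![1, 0, 1]) w :=
    (((shrink_smooth hG hrabs).sub contDiffOn_const).contDiffAt hw1).of_le (by exact_mod_cast le_top)
  have h2 : ContDiffAt ℝ l (fun w => ring (ρ⁻¹ • w) • shrink G r w) w :=
    (((ring_smooth ρ).contDiffOn.smul (shrink_smooth hG hrabs)).contDiffAt hw1).of_le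
      (by exact_mod_cast le_top)
  rw [fun_iteratedFDeriv_sub_apply h1 (h2.const_smul c)]
  refine (norm_sub_le _ _).trans ?_
  rw [show (fun w => c • (ring (ρ⁻¹ • w) • shrink G r w)) =
      c • fun w => ring (ρ⁻¹ • w) • shrink G r w from rfl,
    iteratedFDeriv_const_smul_apply h2, norm_smul, Real.norm_of_nonneg hc]
  have hprod : ‖iteratedFDeriv ℝ l (fun w => ring (ρ⁻¹ • w) • shrink G r w) w‖ ≤
      ∑ m ∈ range (l + 1), (l.choose m : ℝ) * b m * g (l - m) := by
    rw [← iteratedFDerivWithin_of_isOpen l isOpen_ball (hS1 hw)]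
    refine (norm_iteratedFDerivWithin_smul_le (ring_smooth ρ).contDiffOn (shrink_smooth hG hrabs)
      isOpen_ball.uniqueDiffOn (hS1 hw) (n := l) (by exact_mod_cast le_top)).trans
      (Finset.sum_le_sum fun m _ => ?_)
    rw [iteratedFDerivWithin_of_isOpen _ isOpen_ball (hS1 hw),
      iteratedFDerivWithin_of_isOpen _ isOpen_ball (hS1 hw)]
    exact mul_le_mul (mul_le_mul_of_nonneg_left (hb m w hw) (Nat.cast_nonneg _))
      ((hd _ r hr hr1 w hw).trans (mul_le_of_le_one_right (hg0 _) (pow_le_one₀ hr.le hr1)))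
      (norm_nonneg _) (mul_nonneg (Nat.cast_nonneg _) (hb0 m))
  have h3 := hu l r hr hr1 w hw
  have h4 := mul_le_mul_of_nonneg_left hprod hc
  have h5 : 0 ≤ (g l + g 1) * c := mul_nonneg (add_nonneg (hg0 l) (hg0 1)) hc
  have h6 : 0 ≤ r * ∑ m ∈ range (l + 1), (l.choose m : ℝ) * b m * g (l - m) :=
    mul_nonneg hr.le (Finset.sum_nonneg fun m _ =>
      mul_nonneg (mul_nonneg (Nat.cast_nonneg _) (hb0 m)) (hg0 _))
  simp only [hP]
  linarith

/-- The flat torus is smooth. -/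
theorem flatTorus_smooth : ContDiff ℝ ∞ flatTorus := by
  have h : ∀ i : Fin 2, ContDiff ℝ ∞ fun z : R2 => √2 * z i :=
    fun i => contDiff_const.mul (EuclideanSpace.proj (𝕜 := ℝ) i).contDiff
  refine contDiff_pi.2 fun i => ?_
  fin_cases i <;> simp [flatTorus]
  exacts [contDiff_const.mul (h 0).cos, contDiff_const.mul (h 0).sin,
    contDiff_const.mul (h 1).cos, contDiff_const.mul (h 1).sin]

/-- The flat torus is flat. -/
theorem met_flatTorus (t : R2) : met flatTorus t = ![1, 0, 1] := by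
  have h : ∀ i : Fin 2, HasFDerivAt (fun z : R2 => √2 * z i)
      (√2 • (EuclideanSpace.proj (𝕜 := ℝ) i : R2 →L[ℝ] ℝ)) t :=
    fun i => ((EuclideanSpace.proj (𝕜 := ℝ) i).hasFDerivAt).const_mul _
  have hL : HasFDerivAt flatTorus
      ((EuclideanSpace.proj (𝕜 := ℝ) (0 : Fin 2)).smulRight
          (![-sin (√2 * t 0), cos (√2 * t 0), 0, 0] : V4) +
        (EuclideanSpace.proj (𝕜 := ℝ) (1 : Fin 2)).smulRight
          (![0, 0, -sin (√2 * t 1), cos (√2 * t 1)] : V4)) t := by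
    refine hasFDerivAt_pi'.2 fun i => ?_
    fin_cases i <;> simp only [flatTorus, Pi.smul_apply, smul_eq_mul]
    · exact ((h 0).cos.const_mul _).congr_fderiv (by ext a; simp; ring_nf; field_simp)
    · exact ((h 0).sin.const_mul _).congr_fderiv (by ext a; simp; ring_nf; field_simp)
    · exact ((h 1).cos.const_mul _).congr_fderiv (by ext a; simp; ring_nf; field_simp)
    · exact ((h 1).sin.const_mul _).congr_fderiv (by ext a; simp; ring_nf; field_simp)
  have ha := sin_sq_add_cos_sq (√2 * t 0)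
  have hb := sin_sq_add_cos_sq (√2 * t 1)
  funext k
  simp only [met, D, hL.fderiv]
  fin_cases k <;> simp [pt, ip, Fin.sum_univ_four, ← pow_two] <;> linarith

/-- A map into the unit sphere bends at least by the square of its metric. -/
theorem sphere_bend {Z : R2 → V4} {O : Set R2} (hO : IsOpen O) (hZ : ContDiffOn ℝ ∞ Z O)
    (h1 : ∀ w ∈ O, ip (Z w) (Z w) = 1) {z : R2} (hz : z ∈ O) :
    met Z z 0 ^ 2 ≤ sffSq Z z := by
  have hd : ∀ w ∈ O, DifferentiableAt ℝ Z w := fun w hw =>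
    (hZ.differentiableOn (by simp)).differentiableAt (hO.mem_nhds hw)
  have horth : ∀ a : R2, ∀ w ∈ O, ip (Z w) (D a Z w) = 0 := fun a w hw => by
    have e : (fun y => ip (Z y) (Z y)) =ᶠ[𝓝 w] fun _ => (1 : ℝ) :=
      eventually_of_mem (hO.mem_nhds hw) h1
    have h := Legal.D_congr e a
    rw [Legal.D_ip (hd w hw) (hd w hw), Wave.ip_comm (D a Z w) (Z w)] at h
    simp [D] at h
    simp only [D]
    linarith
  set a := pt 1 0
  have hda : DifferentiableAt ℝ (D a Z) z := Legal.diffAt_D hO hZ a hz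
  have h2 : ip (Z z) (D a (D a Z) z) = -met Z z 0 := by
    have e : (fun y => ip (Z y) (D a Z y)) =ᶠ[𝓝 z] fun _ => (0 : ℝ) :=
      eventually_of_mem (hO.mem_nhds hz) (horth a)
    have h := Legal.D_congr e a
    rw [Legal.D_ip (hd z hz) hda] at h
    have e0 : D a (fun _ : R2 => (0 : ℝ)) z = 0 := by simp [D]
    rw [e0] at h
    show _ = -ip (D a Z z) (D a Z z)
    linarith
  have h3 : ip (sff Z z a a) (Z z) = -met Z z 0 := by
    rw [sff, Legal.ip_perp2 (horth _ z hz) (horth _ z hz), Wave.ip_comm]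
    exact h2
  have h4 := Legal.ip_self_nonneg (sff Z z a a - ip (sff Z z a a) (Z z) • Z z)
  simp only [Wave.ip_sub_left, Wave.ip_sub_right, Wave.ip_smul_left, Wave.ip_smul_right, h1 z hz,
    Wave.ip_comm (Z z) (sff Z z a a), h3] at h4
  have h5 := Legal.ip_self_nonneg (sff Z z (pt 1 0) (pt 0 1))
  have h6 := Legal.ip_self_nonneg (sff Z z (pt 0 1) (pt 0 1))
  rw [sffSq]
  linarith

end Vale.Agent.P205.Patch
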