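import Vale.Agent.P205.Assembly.Patch.Glued
import Vale.Agent.P205.Assembly.Patch.Pieces
import Vale.Agent.P205.Assembly.Initial
import Vale.Agent.P205.Assembly.ModelSphere
import Vale.Agent.P205.Iter.Exact

/-!
An exact disc near the flat torus, from the iteration on the model sphere.
-/

noncomputable section

set_option maxSynthPendingDepth 3

open Set Filter Finset Metric Function Real
open scoped ContDiff Topology Manifold

namespace Vale.Agent.P205

open Wave (V4 ip D)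
open Iter (Bil bilL compL' dpar)

/-- Positive components on a compact disc are elliptic with one constant. -/
theorem Patch.ell_const {T : R2 → Sym2} (hT : ContinuousOn T (closedBall 0 2))
    (hpos : ∀ z ∈ closedBall (0 : R2) 2, ∀ a : R2, a ≠ 0 → 0 < qf (T z) a a) :
    ∃ A : ℝ, 0 < A ∧ ∀ z ∈ closedBall (0 : R2) 2, ∀ a : R2,
      ‖a‖ ^ 2 / A ≤ qf (T z) a a ∧ qf (T z) a a ≤ A * ‖a‖ ^ 2 := by
  set P := closedBall (0 : R2) 2 ×ˢ sphere (0 : R2) 1 with hP
  have hPc : IsCompact P := (isCompact_closedBall _ _).prod (isCompact_sphere _ _)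
  have hc : ContinuousOn (fun x : R2 × R2 => qf (T x.1) x.2 x.2) P :=
    (Base.qf_self_continuousOn hT).mono (prod_mono le_rfl (subset_univ _))
  have hne : P.Nonempty := (nonempty_closedBall.2 zero_le_two).prod (NormedSpace.sphere_nonempty.2 zero_le_one)
  obtain ⟨x, hx, hmin⟩ := hPc.exists_isMinOn hne hc
  obtain ⟨y, hy, hmax⟩ := hPc.exists_isMaxOn hne hc
  set lo := qf (T x.1) x.2 x.2
  set hi := qf (T y.1) y.2 y.2
  have hlo : 0 < lo := hpos _ hx.1 _ (fun h => by simpa [h] using hx.2)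
  refine ⟨max hi lo⁻¹, lt_max_of_lt_right (inv_pos.2 hlo), fun z hz a => ?_⟩
  rcases eq_or_ne a 0 with rfl | ha
  · simp [qf]
  · have hn : 0 < ‖a‖ := norm_pos_iff.2 ha
    set u : R2 := ‖a‖⁻¹ • a with hu
    have hu1 : (z, u) ∈ P := ⟨hz, by rw [mem_sphere_zero_iff_norm, hu, norm_smul, norm_inv,
      norm_norm, inv_mul_cancel₀ hn.ne']⟩
    have e : qf (T z) a a = ‖a‖ ^ 2 * qf (T z) u u := by
      rw [hu, Base.qf_smul_self, ← mul_assoc, ← mul_pow, mul_inv_cancel₀ hn.ne', one_pow, one_mul]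
    rw [e]
    have h1 : lo ≤ qf (T z) u u := hmin hu1
    have h2 : qf (T z) u u ≤ hi := hmax hu1
    constructor
    · rw [div_eq_mul_inv]
      refine mul_le_mul_of_nonneg_left (le_trans ?_ h1) (sq_nonneg _)
      rw [inv_le_comm₀ (lt_max_of_lt_right (inv_pos.2 hlo)) hlo]
      exact le_max_right _ _
    · rw [mul_comm]
      exact mul_le_mul_of_nonneg_right (h2.trans (le_max_left _ _)) (sq_nonneg _)

/-- Small components give small quadratic values. -/
theorem Patch.qf_small (T : Sym2) (a : R2) : |qf T a a| ≤ 4 * ‖T‖ * ‖a‖ ^ 2 := by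
  have h0 : |a 0| ≤ ‖a‖ := by simpa using PiLp.norm_apply_le a 0
  have h1 : |a 1| ≤ ‖a‖ := by simpa using PiLp.norm_apply_le a 1
  have hT : ∀ i, |T i| ≤ ‖T‖ := fun i => norm_le_pi_norm T i
  have key : ∀ (i : Fin 3) (u v : ℝ), |u| ≤ ‖a‖ → |v| ≤ ‖a‖ → |T i * (u * v)| ≤ ‖T‖ * ‖a‖ ^ 2 := by
    intro i u v hu hv
    rw [abs_mul, abs_mul, pow_two]
    exact mul_le_mul (hT i) (mul_le_mul hu hv (abs_nonneg v) (norm_nonneg a))
      (mul_nonneg (abs_nonneg u) (abs_nonneg v)) (norm_nonneg T)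
  have k0 := key 0 (a 0) (a 0) h0 h0
  have k1 := key 1 (a 0) (a 1) h0 h1
  have k2 := key 1 (a 1) (a 0) h1 h0
  have k3 := key 2 (a 1) (a 1) h1 h1
  have e : qf T a a = T 0 * (a 0 * a 0) + T 1 * (a 0 * a 1) + T 1 * (a 1 * a 0) +
      T 2 * (a 1 * a 1) := by simp [qf]; ring
  rw [e]
  exact (abs_add_le _ _).trans (by
    linarith [abs_add_le (T 0 * (a 0 * a 0) + T 1 * (a 0 * a 1)) (T 1 * (a 1 * a 0)),
      abs_add_le (T 0 * (a 0 * a 0)) (T 1 * (a 0 * a 1))])

open Patch in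
/-- **An exact disc.** The three waves give, near the flat torus, discs whose metric is a shrunk
given metric dimmed by the ring. -/
theorem exact_patch (hTrio : TrioProp) (G : R2 → Sym2) (hG : ContDiffOn ℝ ∞ G (ball 0 1))
    (hG0 : G 0 = ![1, 0, 1]) (ρ ε : ℝ) (hρ : 0 < ρ) (hρ1 : ρ ≤ 1) (hε : 0 < ε) :
    PatchProp G ρ ε := by
  classical
  obtain ⟨Z, σ, q, hZ, hZ1, hZi, hσ, hqσ, hop, hq, hZσ⟩ := exists_model
  obtain ⟨𝒜₀⟩ := Iter.nonempty_atlas (E := R2) (I := 𝓘(ℝ, R2)) (M := Sphere2)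
    (ContinuousLinearEquiv.refl ℝ R2)
  set 𝒜 := extend 𝒜₀ σ q hσ hqσ hop hq
  set j₀ : 𝒜.ι := none
  have h23 : closedBall (0 : R2) 2 ⊆ ball 0 3 := closedBall_subset_ball (by norm_num)
  have hpar : ∀ j, ∀ z ∈ ball (0 : R2) 3,
      MDifferentiableAt 𝓘(ℝ, R2) 𝓘(ℝ, R2) (𝒜.par j) z := fun j z hz =>
    ((𝒜.par_smooth j).contMDiffAt (isOpen_ball.mem_nhds hz)).mdifferentiableAt (by simp)
  have hinj : ∀ j, ∀ z ∈ ball (0 : R2) 3,
      Function.Injective (mfderiv 𝓘(ℝ, R2) 𝓘(ℝ, R2) (𝒜.par j) z) := fun j z hz =>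
    Base.mfderiv_inj (hpar j z hz) (((𝒜.inv_smooth j).contMDiffAt
      ((𝒜.src_open j).mem_nhds (𝒜.par_mem j hz))).mdifferentiableAt (by simp))
      (eventually_of_mem (isOpen_ball.mem_nhds hz) fun y hy => 𝒜.inv_par j y hy)
  have hZd : ∀ p, MDifferentiableAt 𝓘(ℝ, R2) 𝓘(ℝ, V4) Z p := fun p =>
    (hZ p).mdifferentiableAt (by simp)
  set Zc : 𝒜.ι → R2 → V4 := fun j y => Z (𝒜.par j y) with hZc
  have hZs : ∀ j, ContDiffOn ℝ ∞ (Zc j) (ball 0 3) := fun j => Iter.Atlas.chart_smooth hZ j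
  set g0 : 𝒜.ι → R2 → Sym2 := fun j => met (Zc j) with hg0
  have hg0s : ∀ j, ContDiffOn ℝ ∞ (g0 j) (ball 0 3) := fun j =>
    Base.contDiffOn_met isOpen_ball (hZs j)
  have hg0pos : ∀ j, ∀ z ∈ closedBall (0 : R2) 2, ∀ a : R2, a ≠ 0 → 0 < qf (g0 j z) a a :=
    fun j z hz a ha => Base.met_pos (hZd _) (hpar j z (h23 hz)) (hZi _) (hinj j z (h23 hz)) ha
  -- constants independent of the scale
  choose A0 hA0p hA0 using fun j => ell_const ((hg0s j).continuousOn.mono h23) (hg0pos j)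
  set Am : ℝ := 1 + ∑ j, A0 j with hAm
  have hAj : ∀ j, A0 j ≤ Am := fun j =>
    (single_le_sum (fun k _ => (hA0p k).le) (Finset.mem_univ j)).trans
      (le_add_of_nonneg_left zero_le_one)
  have hAm0 : 0 < Am := add_pos_of_pos_of_nonneg one_pos (Finset.sum_nonneg fun k _ => (hA0p k).le)
  have hAmp : 0 < 2 * Am := mul_pos two_pos hAm0
  obtain ⟨m, hm1, hm⟩ := Iter.exact_order hTrio 𝒜 hAmp
  choose Ce hCe0 hCe using fun i => piece_bd hG hG0 ρ i
  choose cg hcg0 hcg using fun i => glue_bd 𝒜 j₀ i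
  choose Bg hBg0 hBg using fun j => fun i => compact_bd (hg0s j) i
  choose Bz hBz0 hBz using fun j => fun i => compact_bd (hZs j) i
  set Se : ℕ → ℝ := fun i => 2 * cg i * ∑ l ∈ range (i + 1), Ce l with hSe
  have hSe0 : ∀ i, 0 ≤ Se i := fun i =>
    mul_nonneg (mul_nonneg zero_le_two (hcg0 i)) (Finset.sum_nonneg fun l _ => hCe0 l)
  set Sg : ℕ → ℝ := fun i => ∑ j, Bg j i with hSg
  have hSgj : ∀ j i, Bg j i ≤ Sg i := fun j i =>
    single_le_sum (f := fun j => Bg j i) (fun k _ => hBg0 k i) (Finset.mem_univ j)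
  set Sz : ℕ → ℝ := fun i => ∑ j, Bz j i with hSz
  have hSzj : ∀ j i, Bz j i ≤ Sz i := fun j i =>
    single_le_sum (f := fun j => Bz j i) (fun k _ => hBz0 k i) (Finset.mem_univ j)
  have hSg0 : ∀ i, 0 ≤ Sg i := fun i => Finset.sum_nonneg fun k _ => hBg0 k i
  have hSz0 : ∀ i, 0 ≤ Sz i := fun i => Finset.sum_nonneg fun k _ => hBz0 k i
  set C : ℕ → ℝ := fun i => Sg i + Se i + Sz i + 2 * Am ^ 2 with hC
  have hC0 : ∀ i, 0 ≤ C i := fun i =>
    add_nonneg (add_nonneg (add_nonneg (hSg0 i) (hSe0 i)) (hSz0 i))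
      (mul_nonneg zero_le_two (sq_nonneg _))
  obtain ⟨K0, hK0⟩ := hm C
  choose Bf hBf using fun i : ℕ => (isCompact_closedBall (0 : R2) 1).exists_bound_of_continuousOn
    ((flatTorus_smooth.continuous_iteratedFDeriv (m := i) (by exact_mod_cast le_top)).continuousOn)
  set Bs : ℝ := |Bf 0| + |Bf 1| + |Bf 2| with hBs
  have hBs0 : 0 ≤ Bs := add_nonneg (add_nonneg (abs_nonneg _) (abs_nonneg _)) (abs_nonneg _)
  -- the scale
  set K : ℝ := max (max K0 2) (max ((1 + Bs) / ε) (8 * Am * Se 0 + ε⁻¹)) with hK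
  have hKK0 : K0 ≤ K := (le_max_left _ _).trans (le_max_left _ _)
  have hK2 : 2 ≤ K := (le_max_right _ _).trans (le_max_left _ _)
  have hKe : (1 + Bs) / ε ≤ K := (le_max_left _ _).trans (le_max_right _ _)
  have hKA : 8 * Am * Se 0 + ε⁻¹ ≤ K := (le_max_right _ _).trans (le_max_right _ _)
  have hK1 : 1 ≤ K := one_le_two.trans hK2
  have hKp : 0 < K := zero_lt_one.trans_le hK1
  set c : ℝ := (K ^ (m + 1))⁻¹ with hc
  have hc0 : 0 < c := inv_pos.2 (pow_pos hKp _)
  have hcK : c ≤ K⁻¹ := by simpa using Iter.inv_pow_le hK1 (show 1 ≤ m + 1 by omega)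
  have hεK : ε⁻¹ ≤ K := le_trans (le_add_of_nonneg_left
    (mul_nonneg (mul_nonneg (by norm_num) hAm0.le) (hSe0 0))) hKA
  refine ⟨c, hc0, hcK.trans ((inv_le_comm₀ hKp hε).2 hεK), c, hc0, fun r hr hrc => ?_⟩
  have hKi : K⁻¹ ≤ 1 := inv_le_one_of_one_le₀ hK1
  have hr1 : r ≤ 1 := hrc.trans (hcK.trans hKi)
  set e : R2 → Bil R2 := piece G ρ c r with he
  have hes : ContDiff ℝ ∞ e := piece_smooth hG ρ c (by rwa [abs_of_pos hr])
  have hesym : ∀ y u v, e y u v = e y v u := fun y u v => by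
    simp [he, piece, Iter.bilL_apply, qf]; left; ring
  set p : 𝒜.ι → R2 → Sym2 := fun j w => compL' (𝒜.push (single 𝒜 j₀ e) j w) with hp
  have hps : ∀ j, ContDiffOn ℝ ∞ (p j) (ball 0 3) := fun j =>
    compL'.contDiff.comp_contDiffOn (𝒜.push_smooth (fun l => by
      unfold single; split_ifs
      · exact hes
      · exact contDiff_const) (fun l => by
      unfold single; split_ifs
      · exact piece_supp G ρ c r
      · simp [Function.support]) j)
  have hpb : ∀ i j, ∀ z ∈ closedBall (0 : R2) 2,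
      ‖iteratedFDeriv ℝ i (p j) z‖ ≤ Se i * c := fun i j z hz => by
    refine (hcg i e hes (piece_supp G ρ c r) ((∑ l ∈ range (i + 1), Ce l) * (c + r))
      (mul_nonneg (Finset.sum_nonneg fun l _ => hCe0 l) (add_nonneg hc0.le hr.le))
      (fun l hl y => (hCe l c r hc0.le hr hr1 y).trans (mul_le_mul_of_nonneg_right
        (single_le_sum (fun l _ => hCe0 l) (Finset.mem_range.2 (by omega)))
        (add_nonneg hc0.le hr.le))) j z hz).trans ?_
    rw [show Se i * c = cg i * ((∑ l ∈ range (i + 1), Ce l) * (c + c)) by simp only [hSe]; ring]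
    exact mul_le_mul_of_nonneg_left (mul_le_mul_of_nonneg_left (by linarith)
      (Finset.sum_nonneg fun l _ => hCe0 l)) (hcg0 i)
  set g : MForm Sphere2 := fun x => Base.pullForm Z x + glueForm 𝒜 j₀ e x with hg
  have hgc : ∀ j, ∀ z ∈ ball (0 : R2) 3, chartForm g (𝒜.par j) z = g0 j z + p j z := by
    intro j z hz
    have e1 := Base.chartForm_pullForm (hZd _) (hpar j z hz) (X := Z)
    have e2 := chartForm_glue 𝒜 j₀ e j hz
    show _ = met (fun w => Z (𝒜.par j w)) z + compL' (𝒜.push (single 𝒜 j₀ e) j z)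
    rw [← e1, ← e2]
    funext i
    fin_cases i <;> simp [chartForm, hg]
  have hgev : ∀ j, ∀ z ∈ ball (0 : R2) 3,
      chartForm g (𝒜.par j) =ᶠ[𝓝 z] fun w => g0 j w + p j w := fun j z hz =>
    eventually_of_mem (isOpen_ball.mem_nhds hz) (hgc j)
  have hgs : ∀ j, ContDiffOn ℝ ∞ (chartForm g (𝒜.par j)) (ball 0 3) := fun j =>
    ((hg0s j).add (hps j)).congr (hgc j)
  -- the scaled model
  set Km : ℝ := (K ^ m)⁻¹ with hKm
  set s2 : ℝ := 1 - Km + c with hs2
  have hKm0 : 0 < Km := inv_pos.2 (pow_pos hKp m)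
  have hKmK : Km ≤ K⁻¹ := by simpa [hKm] using Iter.inv_pow_le hK1 hm1
  have hKhalf : K⁻¹ ≤ 1 / 2 := by
    rw [one_div]; exact inv_anti₀ two_pos hK2
  have hcKm : c ≤ Km := Iter.inv_pow_le hK1 (Nat.le_succ m)
  have hs2h : 1 / 2 ≤ s2 := by rw [hs2]; linarith
  have hs21 : s2 ≤ 1 := by rw [hs2]; linarith
  set s : ℝ := √s2 with hs
  have hsq : s * s = s2 := Real.mul_self_sqrt (by linarith)
  have hs1 : s ≤ 1 := by rw [hs]; exact Real.sqrt_le_one.2 hs21
  have hs0 : 0 < s := Real.sqrt_pos.2 (by linarith)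
  have hss : 1 - s ≤ K⁻¹ := by
    have h : s2 ≤ s := by rw [← hsq]; exact mul_le_of_le_one_left hs0.le hs1
    linarith [hs2]
  set X : Sphere2 → V4 := fun x => s • Z x with hX
  have hXs : ContMDiff 𝓘(ℝ, R2) 𝓘(ℝ, V4) ∞ X :=
    (show ContDiff ℝ ∞ fun v : V4 => s • v from contDiff_id.const_smul s).comp_contMDiff hZ
  have hXat : ∀ j, ∀ z ∈ ball (0 : R2) 3, ∀ n : ℕ, ContDiffAt ℝ n (Zc j) z := fun j z hz n =>
    ((hZs j).contDiffAt (isOpen_ball.mem_nhds hz)).of_le (by exact_mod_cast le_top)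
  have hmetX : ∀ j, ∀ z ∈ ball (0 : R2) 3, met (fun w => X (𝒜.par j w)) z = s2 • g0 j z := by
    intro j z hz
    have hD : ∀ a, D a (fun w => s • Zc j w) z = s • D a (Zc j) z := fun a => by
      simp only [D]
      rw [fderiv_fun_const_smul ((hXat j z hz 1).differentiableAt (by simp))]
      rfl
    show met (fun w => s • Zc j w) z = s2 • met (Zc j) z
    simp only [met, hD, Wave.ip_smul_left, Wave.ip_smul_right, ← hsq]
    funext i
    fin_cases i <;> simp <;> ring
  have hsmall : 4 * (Se 0 * c) ≤ 1 / (2 * Am) := by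
    rw [le_div_iff₀ hAmp]
    calc 4 * (Se 0 * c) * (2 * Am) = 8 * Am * Se 0 * c := by ring
      _ ≤ K * K⁻¹ := mul_le_mul ((le_add_of_nonneg_right (inv_pos.2 hε).le).trans hKA) hcK hc0.le
          hKp.le
      _ = 1 := mul_inv_cancel₀ hKp.ne'
  have hstart : Start 𝒜 (2 * Am) m C K g X := by
    refine
    { symm := fun x v w => ?_
      smoothX := hXs
      smoothG := hgs
      ell := fun j z hz a => ?_
      bdG := fun j i z hz => ?_
      bdX := fun j i z hz => ?_
      sec := fun j z hz => ?_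
      deficit := fun j i z hz => ?_ }
    · simp only [hg, _root_.add_apply]
      rw [Base.pullForm_apply, Base.pullForm_apply, glueForm_symm 𝒜 j₀ hesym]
      exact congrArg (· + _) (Wave.ip_comm _ _)
    · obtain ⟨l1, l2⟩ := hA0 j z hz a
      have hb := hpb 0 j z hz
      rw [norm_iteratedFDeriv_zero] at hb
      have h1 := abs_le.1 ((qf_small (p j z) a).trans (mul_le_mul_of_nonneg_right
        ((mul_le_mul_of_nonneg_left hb (by norm_num)).trans hsmall) (sq_nonneg ‖a‖)))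
      have e1 : qf (chartForm g (𝒜.par j) z) a a = qf (g0 j z) a a + qf (p j z) a a := by
        rw [hgc j z (h23 hz)]; simp [qf]; ring
      have hn := sq_nonneg ‖a‖
      have m1 : ‖a‖ ^ 2 / Am ≤ qf (g0 j z) a a :=
        (div_le_div_of_nonneg_left hn (hA0p j) (hAj j)).trans l1
      have m2 : qf (g0 j z) a a ≤ Am * ‖a‖ ^ 2 := l2.trans (mul_le_mul_of_nonneg_right (hAj j) hn)
      have m3 : 1 / (2 * Am) * ‖a‖ ^ 2 = ‖a‖ ^ 2 / (2 * Am) := by ring
      have m4 : ‖a‖ ^ 2 / Am = 2 * (‖a‖ ^ 2 / (2 * Am)) := by ring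
      have m5 : ‖a‖ ^ 2 / (2 * Am) ≤ Am * ‖a‖ ^ 2 := by
        rw [div_le_iff₀ hAmp]
        calc ‖a‖ ^ 2 ≤ ‖a‖ ^ 2 * (Am * (2 * Am)) := le_mul_of_one_le_right hn
              (one_le_mul_of_one_le_of_one_le
                (by rw [hAm]; linarith [Finset.sum_nonneg fun k (_ : k ∈ Finset.univ) => (hA0p k).le])
                (by rw [hAm]; linarith [Finset.sum_nonneg fun k (_ : k ∈ Finset.univ) => (hA0p k).le]))
          _ = _ := by ring
      rw [m3] at h1
      rw [e1]
      constructor <;> linarith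
    · rw [one_pow, mul_one, ((hgev j z (h23 hz)).iteratedFDeriv ℝ i).eq_of_nhds,
        fun_iteratedFDeriv_add_apply
          (((hg0s j).contDiffAt (isOpen_ball.mem_nhds (h23 hz))).of_le (by exact_mod_cast le_top))
          (((hps j).contDiffAt (isOpen_ball.mem_nhds (h23 hz))).of_le (by exact_mod_cast le_top))]
      refine (norm_add_le _ _).trans ?_
      have h1 := (hBg j i z hz).trans (hSgj j i)
      have h2 := (hpb i j z hz).trans (mul_le_of_le_one_right (hSe0 i) (hcK.trans hKi))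
      simp only [hC]
      linarith [hSz0 i, sq_nonneg Am]
    · rw [show (fun w => X (𝒜.par j w)) = s • Zc j from rfl,
        iteratedFDeriv_const_smul_apply (hXat j z (h23 hz) i), norm_smul, Real.norm_of_nonneg hs0.le]
      refine (mul_le_of_le_one_left (norm_nonneg _) hs1).trans (((hBz j i z hz).trans (hSzj j i)).trans ?_)
      refine le_trans ?_ (le_mul_of_one_le_right (hC0 i) (one_le_pow₀ hK1))
      simp only [hC]
      linarith [hSg0 i, hSe0 i, sq_nonneg Am]
    · have hz3 := h23 hz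
      have hb := sphere_bend isOpen_ball (hZs j) (fun w _ => hZ1 _) hz3
      have hlo := (hA0 j z hz (pt 1 0)).1
      have hn : ‖pt 1 0‖ ^ 2 = 1 := by simp [pt, EuclideanSpace.norm_sq_eq, Fin.sum_univ_two]
      have hq0 : qf (g0 j z) (pt 1 0) (pt 1 0) = g0 j z 0 := by simp [qf, pt]
      rw [hn, hq0] at hlo
      have hA1 : (1 / Am) ^ 2 ≤ sffSq (Zc j) z :=
        (pow_le_pow_left₀ (by positivity)
          ((div_le_div_of_nonneg_left zero_le_one (hA0p j) (hAj j)).trans hlo) 2).trans hb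
      have hscale : sffSq (fun w => X (𝒜.par j w)) z = s2 * sffSq (Zc j) z := by
        show sffSq (fun w => s • Zc j w) z = _
        have h : ∀ a b, sff (fun w => s • Zc j w) z a b = s • sff (Zc j) z a b := fun a b =>
          sff_smul (hXat j z hz3 2) hs0.ne' a b
        simp only [sffSq, h, Wave.ip_smul_left, Wave.ip_smul_right, ← hsq]
        ring
      rw [hscale]
      have hC00 : 2 * Am ^ 2 ≤ C 0 := by
        simp only [hC]; linarith [hSg0 0, hSe0 0, hSz0 0]
      calc (1 : ℝ) = 2 * Am ^ 2 * 1 * (1 / 2 * (1 / Am) ^ 2) := by field_simp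
        _ ≤ C 0 * K * (s2 * sffSq (Zc j) z) :=
            mul_le_mul (mul_le_mul hC00 hK1 zero_le_one (hC0 0))
              (mul_le_mul hs2h hA1 (sq_nonneg _) (by linarith)) (by positivity)
              (mul_nonneg (hC0 0) hKp.le)
    · have hz3 := h23 hz
      have hev : (fun w => chartForm g (𝒜.par j) w - met (fun u => X (𝒜.par j u)) w -
          Km • chartForm g (𝒜.par j) w) =ᶠ[𝓝 z]
          (fun w => (-c) • g0 j w + (1 - Km) • p j w) := by
        filter_upwards [isOpen_ball.mem_nhds hz3] with w hw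
        rw [hgc j w hw, hmetX j w hw, hs2]
        funext k
        simp
        ring
      rw [(hev.iteratedFDeriv ℝ i).eq_of_nhds]
      have h1 : ContDiffAt ℝ i (g0 j) z :=
        ((hg0s j).contDiffAt (isOpen_ball.mem_nhds hz3)).of_le (by exact_mod_cast le_top)
      have h2 : ContDiffAt ℝ i (p j) z :=
        ((hps j).contDiffAt (isOpen_ball.mem_nhds hz3)).of_le (by exact_mod_cast le_top)
      rw [fun_iteratedFDeriv_add_apply (h1.const_smul (-c)) (h2.const_smul (1 - Km)),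
        show (fun w => (-c) • g0 j w) = (-c) • g0 j from rfl,
        show (fun w => (1 - Km) • p j w) = (1 - Km) • p j from rfl,
        iteratedFDeriv_const_smul_apply h1, iteratedFDeriv_const_smul_apply h2]
      refine (norm_add_le _ _).trans ?_
      rw [norm_smul, norm_smul, Real.norm_eq_abs, Real.norm_eq_abs, abs_neg, abs_of_pos hc0,
        abs_of_nonneg (show (0 : ℝ) ≤ 1 - Km by linarith)]
      refine le_trans ?_ (le_mul_of_one_le_right (mul_nonneg (hC0 i) (inv_nonneg.2 (pow_nonneg hKp.le _)))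
        (one_le_pow₀ hK1))
      calc c * ‖iteratedFDeriv ℝ i (g0 j) z‖ + (1 - Km) * ‖iteratedFDeriv ℝ i (p j) z‖
          ≤ c * Sg i + 1 * (Se i * c) :=
            add_le_add (mul_le_mul_of_nonneg_left ((hBg j i z hz).trans (hSgj j i)) hc0.le)
              (mul_le_mul (by linarith) (hpb i j z hz) (norm_nonneg _) zero_le_one)
        _ = (Sg i + Se i) * c := by ring
        _ ≤ C i * c := mul_le_mul_of_nonneg_right (by
            simp only [hC]; linarith [hSz0 i, sq_nonneg Am]) hc0.le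
  obtain ⟨Y, hY, hiso, hclose⟩ := hK0 K hKK0 g X hstart
  have hWs : ContMDiff 𝓘(ℝ, R2) 𝓘(ℝ, V4) ∞ (fun t => Y (σ t)) := hY.comp hσ
  have hρ2 : ball (0 : R2) (3 * ρ / 4) ⊆ closedBall 0 (3 / 4) :=
    fun t ht => mem_closedBall.2 ((le_of_lt (mem_ball.1 ht)).trans (by linarith))
  refine ⟨fun t => Y (σ t), hWs.contDiff.contDiffOn, fun t ht => ?_, fun i hi t ht => ?_⟩
  · have ht' := hρ2 ht
    have ht1 : t ∈ ball (0 : R2) 1 := closedBall_subset_ball (by norm_num) ht'
    have ht3 : t ∈ ball (0 : R2) 3 := ball_subset_ball (by norm_num) ht1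
    have e1 : met (fun w => Y (σ w)) t = chartForm g (𝒜.par j₀) t := by
      rw [show met (fun w => Y (σ w)) t = chartForm (Base.pullForm Y) (𝒜.par j₀) t from
        (Base.chartForm_pullForm ((hY _).mdifferentiableAt (by simp)) (hpar j₀ t ht3)).symm]
      have : Base.pullForm Y (𝒜.par j₀ t) = g (𝒜.par j₀ t) :=
        ContinuousLinearMap.ext fun v => ContinuousLinearMap.ext fun w => by
          rw [Base.pullForm_apply]; exact hiso _ v w
      simp only [chartForm, this]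
    have e2 : g0 j₀ t = ![1, 0, 1] := by
      have h : Zc j₀ =ᶠ[𝓝 t] flatTorus := eventually_of_mem (isOpen_ball.mem_nhds ht1)
        fun w hw => hZσ w (mem_ball_zero_iff.1 hw).le
      rw [show g0 j₀ t = met (Zc j₀) t from rfl, Base.met_congr h, met_flatTorus]
    have hb : bump t = 1 := bump.one_of_mem_closedBall ht'
    have e3 : p j₀ t = (shrink G r t - ![1, 0, 1]) - c • (ring (ρ⁻¹ • t) • shrink G r t) := by
      show compL' (𝒜.push (single 𝒜 j₀ e) j₀ t) = _
      rw [push_single_self 𝒜 j₀ e ht3]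
      simp only [he, piece, hb, one_smul, Iter.compL'_bilL]
    rw [e1, hgc j₀ t ht3, e2, e3]
    simp only [shrink]
    module
  · have ht' := hρ2 ht
    have ht1 : t ∈ ball (0 : R2) 1 := closedBall_subset_ball (by norm_num) ht'
    have ht3 : t ∈ ball (0 : R2) 3 := ball_subset_ball (by norm_num) ht1
    have hev : (fun w => Y (σ w) - flatTorus w) =ᶠ[𝓝 t]
        fun w => (Y (σ w) - X (σ w)) + (s - 1) • flatTorus w := by
      filter_upwards [isOpen_ball.mem_nhds ht1] with w hw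
      rw [show X (σ w) = s • flatTorus w by rw [hX]; simp [hZσ w (mem_ball_zero_iff.1 hw).le]]
      module
    rw [(hev.iteratedFDeriv ℝ i).eq_of_nhds]
    have hA1 : ContDiffAt ℝ i (fun w => Y (σ w) - X (σ w)) t :=
      (hWs.contDiff.sub (hXs.comp hσ).contDiff).contDiffAt.of_le (by exact_mod_cast le_top)
    have hA2 : ContDiffAt ℝ i flatTorus t :=
      flatTorus_smooth.contDiffAt.of_le (by exact_mod_cast le_top)
    rw [fun_iteratedFDeriv_add_apply hA1 (hA2.const_smul (s - 1))]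
    refine (norm_add_le _ _).trans ?_
    rw [show (fun w => (s - 1) • flatTorus w) = (s - 1) • flatTorus from rfl,
      iteratedFDeriv_const_smul_apply hA2, norm_smul, Real.norm_eq_abs, abs_of_nonpos (by linarith)]
    have h1 : ‖iteratedFDeriv ℝ i (fun w => Y (σ w) - X (σ w)) t‖ ≤ K⁻¹ :=
      hclose j₀ i hi t (ball_subset_closedBall (ball_subset_ball (by norm_num) ht1))
    have h2 : ‖iteratedFDeriv ℝ i flatTorus t‖ ≤ Bs := by
      refine ((hBf i t (ball_subset_closedBall ht1)).trans (le_abs_self _)).trans ?_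
      rw [hBs]
      interval_cases i <;> linarith [abs_nonneg (Bf 0), abs_nonneg (Bf 1), abs_nonneg (Bf 2)]
    calc _ ≤ K⁻¹ + K⁻¹ * Bs :=
          add_le_add h1 (mul_le_mul (by linarith) h2 (norm_nonneg _) (inv_nonneg.2 hKp.le))
      _ = (1 + Bs) * K⁻¹ := by ring
      _ ≤ ε := by
          rw [← div_eq_mul_inv, div_le_iff₀ hKp, mul_comm]
          rwa [div_le_iff₀ hε] at hKe

end Vale.Agent.P205
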